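import Vale.Agent.P038.H391.MF
import Vale.Agent.P038.S450.G

/-!
# P038 (H355): Seymour's second neighbourhood conjecture from `no_strict` and `G`
-/

namespace Vale.Agent.P038.H355

open Finset Vale.Agent.P038.H139

universe u

variable {V : Type u} [Fintype V]

/-- There is a counterexample with the fewest arcs on the same vertex set. -/
theorem exists_min (D : OGraph V) (hCE : ∀ v, (N2 D v).card < (N1 D v).card) :
    ∃ D' : OGraph V, (∀ v, (N2 D' v).card < (N1 D' v).card) ∧
      ∀ D'' : OGraph V, (∀ v, (N2 D'' v).card < (N1 D'' v).card) →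
        (∑ v, (N1 D' v).card) ≤ ∑ v, (N1 D'' v).card := by
  classical
  have hex : ∃ n : ℕ, ∃ D' : OGraph V, (∀ v, (N2 D' v).card < (N1 D' v).card) ∧
      (∑ v, (N1 D' v).card) = n := ⟨_, D, hCE, rfl⟩
  obtain ⟨D', h1, h2⟩ := Nat.find_spec hex
  refine ⟨D', h1, fun D'' h => ?_⟩
  rw [h2]
  exact Nat.find_min' hex ⟨D'', h, rfl⟩

/-- **Seymour's second neighbourhood conjecture.** -/
theorem seymour [Nonempty V] (D : OGraph V) : ∃ v, (N1 D v).card ≤ (N2 D v).card := by
  classical
  by_contra hcon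
  push Not at hcon
  obtain ⟨E, hE, hmin⟩ := exists_min D hcon
  set N : V → Finset V := fun a => insert a (N1 E a) with hN
  have mN : ∀ a b, b ∈ N a ↔ b = a ∨ E.arc a b := by
    intro a b
    simp [hN, mem_N1]
  have hnb : ∀ X : Finset V, H391.nb N X = cl E X := by
    intro X
    ext z
    rw [H391.mem_nb, mem_cl]
    constructor
    · rintro ⟨x, hx, hz⟩
      rcases (mN x z).1 hz with h | h
      · subst h
        exact Or.inl hx
      · exact Or.inr ⟨x, hx, h⟩
    · rintro (h | ⟨y, hy, h⟩)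
      · exact ⟨z, h, (mN z z).2 (Or.inl rfl)⟩
      · exact ⟨y, hy, (mN y z).2 (Or.inr h)⟩
  have hW : ∀ X : Finset V, H391.W (fun _ => (1 : ℝ)) X = (X.card : ℝ) := by
    intro X
    simp [H391.W]
  have hh : ∀ X : Finset V, H391.hh N (fun _ => (1 : ℝ)) X = ((cl E X \ X).card : ℝ) := by
    intro X
    have hsub : X ⊆ cl E X := fun z hz => mem_cl.2 (Or.inl hz)
    have h1 : (cl E X \ X).card + X.card = (cl E X).card := Finset.card_sdiff_add_card_eq_card hsub
    unfold H391.hh
    rw [hnb, hW, hW, ← h1]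
    push_cast
    ring
  refine H391.no_strict N (fun a => (mN a a).2 (Or.inl rfl)) ?_ (fun _ => (1 : ℝ))
    (fun _ => one_pos) ?_ ?_
  · intro a b hb ha
    rcases (mN a b).1 hb with h | h
    · exact h.symm
    · rcases (mN b a).1 ha with h' | h'
      · exact h'
      · exact absurd h' (E.asymm _ _ h)
  · intro a
    have h1 : 0 < (N1 E a).card := lt_of_le_of_lt (Nat.zero_le _) (hE a)
    obtain ⟨b, hb⟩ := Finset.card_pos.1 h1
    refine ⟨b, (mN a b).2 (Or.inr (mem_N1.1 hb)), ?_⟩
    rintro rfl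
    exact E.loopless _ (mem_N1.1 hb)
  · intro X hX
    rw [hh, hh, hnb]
    rw [hnb] at hX
    exact_mod_cast S450.G E hE hmin X hX

end Vale.Agent.P038.H355
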